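import Crest.Agent.X212.Nr51.Nk
import Crest.Agent.X212.Nvg56.Cn

/-!
# Row 212, E-NR (helper51), part 2: the lower bound for reducible configurations on a piece
-/

set_option autoImplicit false
set_option linter.unusedSectionVars false
noncomputable section
open scoped Manifold ContDiff Topology InnerProductSpace
open MeasureTheory Set Filter

namespace Crest.Agent.X212.Nr51
open An Wz78 Sob92 Sw88 Cyf70 Nka63
open Mp86.En hiding k2
open Sw (Bg F2 En3 Nk Pz BCs bp)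
open Sw.En3
open M (Mf pm)
open Crest.Agent.R208.F (Ext)
open Dr59 (Cs Ex ip)
open Num57 (vol)
open Nd18 (Dp ct)
open Pb50 (src)
open Bor5.T (Cur)

variable {κ lam ν : Type} [Fintype κ] [Fintype lam] [Fintype ν] [DecidableEq ν] {X : Mf 4} {nc : ℕ}
  {b : Bg X.I X.M κ lam ν nc} {x : X.M}

theorem ip_sq {o A B : X.M → Ext X.E} (ho : Int54.Ori X.I o) (hA : Cs X.I 2 univ A) (hB : Cs X.I 2 univ B)
    (h : Ex X.I univ (A - B)) : ip X.I o A A = ip X.I o B B := by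
  rw [hA.ip_coh ho hA.cl.sm hB.cl.sm h, Dr59.ip_comm hB.cl.dg, hB.ip_coh ho hA.cl.sm hB.cl.sm h]

theorem qd0 : b.qd x 0 0 = 0 := by ext s; simp [Bg.qd]

variable (b) in
/-- the form `dθ ∧ α` -/
def Rw (θ : X.M → ℝ) (α : Option κ → X.M → ℝ) (x : X.M) : F2 κ :=
  WithLp.toLp 2 fun s => b.F.D s.1 θ x * α s.2 x - b.F.D s.2 θ x * α s.1 x

theorem fc_mix (hb : b.OK) {c c' : Sw.Cfg X.M κ ν} {θ : X.M → ℝ} (h : ∀ a, SA X.I (c.a a) x)
    (h' : ∀ a, SA X.I (c'.a a) x) (hθ : SA X.I θ x) :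
    b.fc ⟨fun a y => c'.a a y + θ y * (c.a a y - c'.a a y), 0⟩ x =
      θ x • b.fc c x + (1 - θ x) • b.fc c' x + Rw b θ (fun a => c.a a - c'.a a) x := by
  ext s
  have k := fun a => SA.mul hθ ((h a).sub (h' a))
  rw [fc_add hb fun a => (h' a).add (k a)]
  simp only [d1, fun a i => dv_add' (e := b.F.e i) (h' a) (k a), fun a i => Wz78.dv_mul (e := b.F.e i) hθ
    ((h a).sub (h' a)), fun a i => dv_sub' (e := b.F.e i) (h a) (h' a)]
  simp only [PiLp.add_apply, PiLp.smul_apply, fc_add hb h, fc_add hb h', d1, Rw, Pre.D_def, smul_eq_mul, mul_add, mul_sub, Finset.sum_add_distrib,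
    Finset.sum_sub_distrib, mul_left_comm _ (θ x), ← Finset.mul_sum, Pi.sub_apply]
  ring

theorem fc_t {e : En3 κ lam ν} (he : e.OK) {v : e.YC} (hv : e.cyl.Adm (fz v)) (y : e.Y.M) (t : ℝ) :
    e.cyl.fc (fz v) (y, t) = e.cyl.fc (fz v) (y, 0) := by
  ext ⟨_ | j, _ | k⟩
  exacts [(fc_none _ _).1.trans (fc_none _ _).1.symm, (fc_none _ _).1.trans (fc_none _ _).1.symm,
    (fc_none _ _).2.trans (fc_none _ _).2.symm, fc_sl he (fun i => hv.sa i _) j k]

/-- **reducible limits are flat** -/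
theorem flat {e : En3 κ lam ν} (K : Nk e b) (hb : b.OK) (he : e.OK) (ho : e.om = 0) {v : e.YC} (hv : Crit v)
    (h0 : v.Φ = 0) {g : X.M → Ext X.E} (hg : Dr59.Cl X.I 2 univ g) {t₀ : ℝ} (ev : ∀ᶠ t in 𝓝 t₀, t ∈ K.J ∧
      ∀ y, kv b (K.ψ (y, t)) (g (K.ψ (y, t))) = (2 : ℝ) • e.cyl.fc (fz v) (y, t))
    (h : e.f = 0 ∨ (e.Clo (zf e) ∧ Ex X.I K.ψ.target g)) (y : e.Y.M) (t : ℝ) :
    e.cyl.fc (fz v) (y, t) = 0 := by
  set r := deriv e.f (hol v) with hr
  have h1 : ∀ y k, (e.cyl.p2 (y, 0) (e.cyl.fc (fz v) (y, 0)) + r • e.ζ y) (none, some k) = 0 := fun y k => by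
    simpa [gr, Bg.eC, cyl_om, ho, show (fz v).Φ (y, 0) = 0 from congrFun h0 y, qd0 (X := e.Z)] using hv.2.1 k y
  suffices r • e.ζ y = 0 from (fc_t he hv.1 y t).trans (zero_sp he (a2_fix (T := fun i j => e.cyl.fc (fz v)
    (y, 0) (i, j)) (fc_swap he.cyl hv.1) (he.cyl.G.P ▸ fc_proj he.cyl hv.1)) (fun i => (fc_none i _).1)
      fun k => by simpa [this] using h1 y k)
  rcases h with h | ⟨hz, h⟩
  · simp [hr, h]
  have G := fun y => eq_neg_of_add_eq_zero_left (zero_sd he (by rw [map_add, p2_p2 he.cyl, map_smul, he.pζ]) (h1 y))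
  obtain ⟨σ, s1, s2, s3, s4, s5⟩ := exists_contDiff_tsupport_subset (n := ⊤) ev
  obtain ⟨w, w1, -, w3⟩ := exists_tz he K hz s3 s2 fun t ht => (s1 ht).1
  have d : ∀ x, -r * dn b g w x = σ (K.tm x) * ‖r • e.ζ (K.ψ.symm x).1‖ ^ 2 := fun x => by
    by_cases k : σ (K.tm x) = 0
    · simp [dn, w3, k]
    have k' := s1 (subset_tsupport _ k)
    obtain ⟨⟨y, t⟩, hz, rfl⟩ := K.ψ.surjOn (K.tgt.ge k'.1)
    rw [K.tm_ψ _ hz] at k'
    have z : ⟪e.cyl.fc (fz v) (y, 0), tz e y⟫_ℝ = 0 := by simp [inner_F2, fc_none, tz]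
    have z' : ⟪e.cyl.fc (fz v) (y, 0), e.ζ y⟫_ℝ = -r * ‖e.ζ y‖ ^ 2 := by
      rw [← he.pζ, ← inner_p2 he.cyl, he.pζ, G, inner_neg_left, real_inner_smul_left,
        real_inner_self_eq_norm_sq, neg_mul]
    rw [← p2_tz he, real_inner_smul_right, p2_tz he] at z'
    rw [dn, w3, k'.2, K.ψ.left_inv hz, Pb50.p2_ψ K hz, p2_t he, fc_t he hv.1, map_smul, norm_smul, mul_pow,
      Real.norm_eq_abs, sq_abs]
    simp only [real_inner_smul_left, real_inner_smul_right, z]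
    linear_combination -r * σ (K.tm (K.ψ (y, t))) * z'
  have := Sob92.openPos b.F.toPre
  refine by_contra fun k => (Continuous.integral_pos_of_hasCompactSupport_nonneg_nonzero (μ := b.F.μ)
    (x := K.ψ (y, t₀)) ((c_dn hb hg.sm w1.cl.sm).const_mul (-r)) (k_dn w1.hc).mul_left
    (fun x => (d x).ge.trans' (mul_nonneg (s4 ⟨_, rfl⟩).1 (sq_nonneg _))) ?_).ne' ?_
  · have hz := src K ev.self_of_nhds.1 y
    rw [d, K.tm_ψ _ hz, s5, K.ψ.left_inv hz]
    simpa using k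
  · rw [integral_const_mul, ← ip_eq hb hg.dg, w1.ip_ex (ok hb).ori h, mul_zero]

variable [DecidableEq κ] {l N : Type} [Fintype l] [DecidableEq l] [Fintype N] {e : N → En3 κ lam (l ⊕ l)}
  {P : Pz X nc e} {d : Lab56.Cls X.I (univ : Set X.M)} {f c₀ : X.M → Ext X.E} {β : BCs e} {T : ℝ}
  {c : Sw.Cfg X.M κ (l ⊕ l)}

variable (P d f) in
/-- the hypotheses on the piece -/
structure Hy : Prop where
  ok : P.OK
  rp : ∃ m, P.bg.m = Lab56.C8.re m ∧ Gm56.Rp P.bg.F.e m d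
  cs : Cs X.I 2 univ f
  om : ∀ x, P.bg.om x = P.bg.p2 x (kv P.bg x (f x))
  f0 : ∀ j : Ix P, ∀ x ∈ (kk j).ψ.target, f x = 0
  o : ∀ i, (e i).om = 0
  ex : ∀ j : Ix P, (e j.1).f = 0 ∨ ((e j.1).Clo (zf (e j.1)) ∧ ∀ g, Cur d g → Ex X.I (kk j).ψ.target g)

variable (P β T) in
/-- the base configuration is static beyond `T` -/
def Far : Prop := 0 ≤ T ∧ ∀ (j : Ix P) s, (kk j).Inf s → ∀ t, T < pm s * t →
  t ∈ Dq (kk j).p (kk j).q 2 ∧ ∀ y a, ((kk j).pb (P.base β)).a a (y, t) = (fz (β j.1 s)).a a (y, t)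

theorem ev_far (hP : P.OK) : ∀ᶠ T in atTop, Far P β T := (eventually_ge_atTop 0).and <| by
  simp only [eventually_all]
  exact fun j s hs => ev_T ((ev_Dq hs 2).and (ev_nd (eventually_all.2 fun a =>
    Pb50.base_ev hP (g := fun i s => (fz (β i s)).a a) (kk_mem j) hs)))

variable (P T) in
/-- the cut-off -/
abbrev uu (j : Ix P) : ℝ → ℝ := stp (T + 1) (kk j).Inf fun _ => 1

theorem Far.ne (hT : Far P β T) {j : Ix P} {t : ℝ} (h : uu P T j t ≠ 0) :
    ∃ s, (kk j).Inf s ∧ T < pm s * t ∧ t ∈ Dp (kk j).p (kk j).q 2 :=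
  (stp_ne h).imp fun s k => have : T < pm s * t := by linarith [k.2]
    ⟨k.1, this, Dq_sub_Dp (hT.2 j s k.1 t this).1⟩

theorem Far.h0 (hT : Far P β T) (j : Ix P) (t : ℝ) (h : t ∉ Dp (kk j).p (kk j).q 2) : uu P T j t = 0 :=
  by_contra fun k => h (hT.ne k).choose_spec.2.2

theorem Hy.cur (H : Hy P d f) (sa : ∀ i, Sm X.I (c.a i))
    (pa : ∀ i x, ∑ j, P.bg.B.P i j x * c.a j x = c.a i x) :
    ∃ g, Cur d g ∧ ∀ x, kv P.bg x (g x) = (2 : ℝ) • P.bg.fc c x :=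
  let ⟨_, h1, h2⟩ := H.rp
  (Gm56.cur_fc H.ok.bg h1 h2 sa pa).imp fun _ h => ⟨h.1, fun x => by ext s; exact h.2 x s⟩

variable (H : Hy P d f) (hβ : P.Cr β) (h0 : ∀ i s, P.Inf i s → (β i s).Φ = 0)
include H hβ h0

theorem base_flat (hT : Far P β T) (h : θu (uu P T) x ≠ 1) : P.bg.fc (P.base β) x = 0 ∧ f x = 0 := by
  obtain ⟨j, hj⟩ := θu_ne h
  obtain ⟨s, h1, h2, h3⟩ := hT.ne hj
  have hx := (kk j).dp_sub two_pos h3
  obtain ⟨g, g1, g2⟩ := H.cur (Pb50.adm_base hβ).sa (Pb50.adm_base hβ).pa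
  have k : ∀ t, T < pm s * t → t ∈ (kk j).J ∧ ∀ y,
      P.bg.fc (P.base β) ((kk j).ψ (y, t)) = (e j.1).cyl.fc (fz (β j.1 s)) (y, t) := fun t ht =>
    have hJ := Dq_sub zero_le_two (hT.2 j s h1 t ht).1
    ⟨hJ, fun y => (Pb50.fc_ψ _ (src _ hJ y) _).trans (fc_congr fun a =>
      ((Pb50.isOpen_nd T).eventually_mem (x := (y, t)) ht).mono fun z hz => (hT.2 j s h1 z.2 hz).2 z.1 a)⟩
  refine ⟨?_, H.f0 j x hx⟩
  obtain ⟨⟨y, t⟩, hz, rfl⟩ := (kk j).ψ.surjOn hx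
  rw [(kk j).tm_ψ _ hz] at h2
  rw [(k t h2).2]
  exact flat (kk j) H.ok.bg (H.ok.en _) (H.o _) (hβ _ s ⟨_, kk_mem j, h1⟩) (h0 _ s ⟨_, kk_mem j, h1⟩)
    (Nvg56.cur_cl g1) (((continuous_const.mul continuous_id).continuousAt.eventually_const_lt h2).mono
      fun t ht => ⟨(k t ht).1, fun y => by rw [g2, (k t ht).2]⟩) ((H.ex j).imp_right fun h => ⟨h.1, h.2 g g1⟩) y t

/-- **the test form** -/
theorem step (hT : Far P β T) (hc : P.bg.Adm c) (hΦ : c.Φ = 0) (k0 : Cs X.I 2 univ c₀) (k1 : Cur d c₀) :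
    ∃ A, Cs X.I 2 univ A ∧ ip X.I (vol P.bg.F P.bg.B.o) A A =
      ip X.I (vol P.bg.F P.bg.B.o) ((1 / 2 : ℝ) • c₀ - f) ((1 / 2 : ℝ) • c₀ - f) ∧
      ∀ x, P.bg.p2 x (kv P.bg x (A x)) = θu (uu P T) x • (P.bg.eC c x - P.p0.C c x) +
        P.bg.p2 x (Rw P.bg (θu (uu P T)) (fun a => c.a a - (P.base β).a a) x) := by
  have hP := H.ok
  have hb := hP.bg
  have ho := (ok hb).ori
  have ab := Pb50.adm_base hβ
  have T1 : 0 ≤ T + 1 := by linarith [hT.1]
  have sθ : Sm X.I (θu (uu P T)) := fun x =>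
    contMDiffAt_const.sub (SA.sum _ fun j _ => (D_tm (kk j) cd_stp (hT.h0 j)).1 x)
  have z : ∀ x ∉ P.core (T + 2), θu (uu P T) x = 0 := fun x hx => by
    refine by_contra fun n => hx fun i s => (all_kk P (p := fun _ K => K.Inf s →
      x ∉ K.ψ '' univ ×ˢ K.far s (T + 2))).2 (fun j hs ⟨z, hz, e⟩ => n ?_) i
    have k := (kk j).mem_src.2 hz.2.1
    rw [← e, θu_tgt hP hT.h0 ((kk j).ψ.map_source k), (kk j).tm_ψ _ k, show uu P T _ _ = _ from
      stp_far T1 (by linarith [show T + 2 < _ from hz.2.2]), if_pos hs, sub_self]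
  obtain ⟨g, g1, g2⟩ := H.cur (c := ⟨fun a y => (P.base β).a a y + θu (uu P T) y *
    (c.a a y - (P.base β).a a y), 0⟩) (fun a x => (ab.sa a x).add (SA.mul (sθ x) ((hc.sa a x).sub (ab.sa a x))))
    fun a x => by simp only [mul_add, mul_left_comm _ (θu _ x), mul_sub, Finset.sum_add_distrib,
      Finset.sum_sub_distrib, ← Finset.mul_sum, hc.pa, ab.pa]
  have gc := Nvg56.cur_cl g1
  have gs : Cs X.I 2 univ g := ⟨gc, .intro (hP.cpt (T + 2)) fun x hx => kv_inj gc.dg (by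
    rw [g2, fc_congr (c' := P.base β) fun a => ((hP.cpt _).isClosed.isOpen_compl.eventually_mem hx).mono
      fun y hy => by simp [z y hy], (base_flat H hβ h0 hT (by simp [z x hx])).1, smul_zero]), subset_univ _⟩
  set σ := fun (j : Ix P) t => (2 * (1 - uu P T j t)) *
    (ct (kk j).p (kk j).q 1 t • deriv (e j.1).f (hol (sl ((kk j).pb c) t))) with hσ
  have ex : ∀ j : Ix P, ∃ w, Cs X.I 2 (kk j).ψ.target w ∧ Ex X.I (kk j).ψ.target w ∧
      (∀ x, kv P.bg x (w x) = σ j ((kk j).tm x) • tz (e j.1) ((kk j).ψ.symm x).1) ∧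
      ∀ Z, ((∀ g, Cur d g → Ex X.I (kk j).ψ.target g) → Ex X.I (kk j).ψ.target Z) →
        ip X.I (vol P.bg.F P.bg.B.o) Z w = 0 := fun j => by
    rcases H.ex j with h | ⟨h, h'⟩
    · exact ⟨0, .zero, .zero, fun x => by simp [hσ, h], fun Z _ => by
        simpa using Dr59.ip_smul_right (I := X.I) 0 _ Z 0⟩
    have he := hP.en j.1
    have s0 : tsupport (ct (kk j).p (kk j).q 1) ⊆ (kk j).J := Nd18.tsupport_ct.trans (Nd18.Dp_sub one_pos)
    obtain ⟨w, w1, w2, w3⟩ := exists_tz he (kk j) h (σ := σ j) ((contDiff_const.mul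
      (contDiff_const.sub cd_stp)).mul (contMDiff_iff_contDiff.1 (sm_cut Nd18.isOpen_Jv
        (contMDiff_iff_contDiff.2 Nd18.contDiff_ct) s0 (contMDiffOn_iff_contDiffOn.2
          ((contDiff_infty_iff_deriv.1 he.sf).2.comp_contDiffOn (cd_sl _ Nd18.isOpen_Jv
            (g := fun z => 4 * ∑ k, (e j.1).ζ z.1 (none, some k) * ((kk j).pb c).a (some k) z) fun z hz =>
              (SA.mul contMDiffAt_const (SA.sum _ fun k _ => SA.mul (Sep15.S.sa_ev (sm_fst he.sζ z) (none, some k))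
                (Pb50.sa_ψ _ ((kk j).mem_src.2 hz.2) (hc.sa (some k) _)))).contMDiffWithinAt))))))
      (by
        have k : ∀ s, σ j =ᶠ[lE s] 0 := fun s => by
          by_cases hs : (kk j).Inf s
          · exact (ev_pm s (T + 1 + 1)).mono fun t ht => by simp [hσ, stp_far T1 ht.le, hs]
          · exact (ev_not hs 1).mono fun t ht => by simp [hσ, ct_zero' ht]
        rw [hasCompactSupport_iff_eventuallyEq, coclosedCompact_eq_cocompact, cocompact_eq_atBot_atTop]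
        exact eventually_sup.2 ⟨k false, k true⟩)
      (tsupport_mul_subset_right.trans ((tsupport_smul_subset_left _ _).trans s0))
    exact ⟨w, w1, w2, w3, fun Z hZ => w1.ip_ex ho (hZ h')⟩
  choose w w1 w2 w3 w4 using ex
  have cG := (gs.smul (1 / 2)).sub' H.cs
  have cS : Cs X.I 2 univ (∑ j, w j) := Dr59.cs_sum fun j _ => (w1 j).mono (subset_univ _)
  have k : ∀ {Z}, Cs X.I 2 univ Z → (∀ j, (∀ g, Cur d g → Ex X.I (kk j).ψ.target g) →
      Ex X.I (kk j).ψ.target Z) → ip X.I (vol P.bg.F P.bg.B.o) Z (∑ j, w j) = 0 := fun h h' => by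
    rw [Dr59.ip_sum_right ho h.cl.sm fun j _ => (w1 j).mono (subset_univ _)]
    exact Finset.sum_eq_zero fun j _ => w4 j _ (h' j)
  have eG := fun j (h : ∀ g, Cur d g → Ex X.I (kk j).ψ.target g) =>
    ((h g g1).smul (1 / 2)).sub (Dr59.ex_of_zero (H.f0 j))
  refine ⟨_, cG.add cS, ?_, fun x => ?_⟩
  · have := scs (I := X.I) (M := X.M)
    obtain ⟨a, a1, -, a2⟩ := Gm56.cur_ex k1 g1
    rw [Dr59.ip_add_right cG cS ho (cG.add cS).cl.sm, k (cG.add cS) fun j h => (eG j h).add (Dr59.ex_sum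
      fun i _ => ?_), add_zero, Dr59.ip_comm (cG.add cS).cl.dg, Dr59.ip_add_right cG cS ho cG.cl.sm,
      k cG eG, add_zero]
    · exact ip_sq ho cG ((k0.smul _).sub' H.cs) (((Dr59.ex_dM a1).smul (1 / 2)).congr fun x _ => by simp [a2])
    · rcases eq_or_ne i j with rfl | n
      exacts [w2 _, Dr59.ex_of_zero fun x hx => (w1 i).eq_zero fun k => disjoint_left.1
        (hP.dj (Subtype.coe_ne_coe.2 n) _ (kk_mem i) _ (kk_mem j)) k hx]
  have h1 : ∀ j, P.bg.p2 x (kv P.bg x (w j x)) = -(θu (uu P T) x • (kk j).hl c x) := fun j => by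
    rw [w3, map_smul, Nk.hl, Nd18.Nk.ext, Nd18.Nk.χ]
    by_cases n : ct (kk j).p (kk j).q 1 ((kk j).tm x) = 0
    · simp [hσ, n]
    have hx := (kk j).dp_sub one_pos (by_contra fun k => n (Nd18.ct_zero k))
    rw [θu_tgt hP hT.h0 hx, ← p2_tz (hP.en _), ← p2_t (hP.en _) ((kk j).ψ.symm x).2,
      ← Pb50.p2_ψ _ ((kk j).ψ.map_target hx), (kk j).ψ.right_inv hx]
    simp only [hσ, smul_eq_mul]
    module
  have h2 : (1 - θu (uu P T) x) • P.bg.fc (P.base β) x = 0 ∧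
      (1 - θu (uu P T) x) • P.bg.p2 x (kv P.bg x (f x)) = 0 := by
    by_cases n : θu (uu P T) x = 1
    · simp [n]
    · simp [base_flat H hβ h0 hT n]
  simp only [Pi.add_apply, Pi.sub_apply, Pi.smul_apply, Finset.sum_apply, map_add, map_sub, map_smul, map_sum,
    g2, fc_mix hb (hc.sa · x) (ab.sa · x) (sθ x), h2.1, h1, Bg.eC, hΦ, Pi.zero_apply, qd0, H.om, Pz.p0,
    sum_kk P fun _ K => K.hl c x, Finset.sum_neg_distrib, ← Finset.smul_sum, map_zero]
  linear_combination (norm := module) -h2.2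

/-- **the lower bound** -/
theorem core (hc : P.As β c) (hΦ : c.Φ = 0) (k0 : Cs X.I 2 univ c₀) (k1 : Cur d c₀) :
    ENNReal.ofReal (ip X.I (vol P.bg.F P.bg.B.o) ((1 / 2 : ℝ) • c₀ - f) ((1 / 2 : ℝ) • c₀ - f)) ≤
      ∫⁻ x, ‖P.bg.eC c x - P.p0.C c x‖ₑ ^ 2 ∂P.bg.F.μ := by
  have hb := H.ok.bg
  have S := (ev_far (β := β) H.ok).mono fun T hT => step H hβ h0 hT hc.1 hΦ k0 k1
  refine (le_top.lt_or_eq).elim (fun fin => ?_) fun h => le_top.trans_eq h.symm
  obtain ⟨C, hC⟩ := Continuous.bounded_above_of_compact_support (f := bp) ((Real.smoothTransition.contDiff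
    (n := 1)).continuous_deriv le_rfl) (.intro isCompact_Icc fun _ => Pb50.bp_zero)
  set α := fun a => c.a a - (P.base β).a a
  have hα := ((Pb50.as_iff H.ok hβ).1 hc).2.1
  set n := (Fintype.card (Ix P) : ℝ)
  have i : Integrable (fun x => 2 * ∑ s : Option κ × Option κ, 2 * (n * (2 * C)) ^ 2 *
      (‖α s.1 x‖ ^ 2 + ‖α s.2 x‖ ^ 2)) P.bg.F.μ := (integrable_finsetSum _ fun s _ => (Integrable.add
    (integrableOn_univ.1 ((hα _).hh _ [])) (integrableOn_univ.1 ((hα _).hh _ []))).const_mul _).const_mul _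
  refine ge_of_tendsto (tendsto_lintegral_filter_of_dominated_convergence (F := fun T x =>
    ‖θu (uu P T) x • (P.bg.eC c x - P.p0.C c x) + P.bg.p2 x (Rw P.bg (θu (uu P T)) α x)‖ₑ ^ 2)
    (fun x => ENNReal.ofReal (2 * (1 + n * 2) ^ 2) * ‖P.bg.eC c x - P.p0.C c x‖ₑ ^ 2 + ENNReal.ofReal _)
    (S.mono fun T ⟨A, a1, _, a3⟩ => by simpa only [a3] using (c_p2 hb a1.cl.sm).measurable.enorm.pow_const 2)
    ((ev_far (β := β) H.ok).mono fun T hT => .of_forall fun x => ?_) (by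
      rw [lintegral_add_right' _ i.1.aemeasurable.ennreal_ofReal, lintegral_const_mul' _ _ ENNReal.ofReal_ne_top]
      exact ENNReal.add_ne_top.2 ⟨ENNReal.mul_ne_top ENNReal.ofReal_ne_top fin.ne, i.lintegral_lt_top.ne⟩)
    (.of_forall fun x => tendsto_const_nhds.congr' ?_))
    (S.mono fun T ⟨A, a1, a2, a3⟩ => by simpa only [a2, a3] using ip_le hb a1)
  · have b1 : ‖θu (uu P T) x‖ ≤ 1 + n * 2 := (abs_sub _ _).trans (add_le_add abs_one.le
      ((Finset.abs_sum_le_sum_abs _ _).trans ((Finset.sum_le_card_nsmul _ _ 2 fun j _ => by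
        have := fun s => Real.smoothTransition.nonneg (pm s * (kk j).tm x - (T + 1))
        have := fun s => Real.smoothTransition.le_one (pm s * (kk j).tm x - (T + 1))
        simp only [stp, Fintype.sum_bool]
        grind).trans_eq (nsmul_eq_mul _ _))))
    have b2 : ∀ a, |P.bg.F.D a (θu (uu P T)) x| ≤ n * (2 * C) := fun a => by
      have D := fun j => D_tm (kk j) cd_stp (hT.h0 j)
      rw [show P.bg.F.D a (θu (uu P T)) x = 0 - ∑ j, P.bg.F.D a (fun x => uu P T j ((kk j).tm x)) x from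
        (dv_sub' contMDiffAt_const (SA.sum _ fun j _ => (D j).1 x)).trans (congrArg₂ _
          (by rw [dv_const]; rfl) (dv_sum' _ fun j => (D j).1 x)), zero_sub, abs_neg]
      refine (Finset.abs_sum_le_sum_abs _ _).trans ((Finset.sum_le_card_nsmul _ _ _ fun j _ => ?_).trans_eq
        (nsmul_eq_mul _ _))
      have := (D j).2 x (Pi.single a 1)
      have h1 := fun s => abs_le.1 (hC (pm s * (kk j).tm x - (T + 1)))
      have h2 := h1 true
      have h3 := h1 false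
      simp only [Pi.single_apply, mul_ite, mul_one, mul_zero, Finset.sum_ite_eq', Finset.mem_univ, if_true,
        deriv_stp, Fintype.sum_bool, pm] at this h2 h3
      grind
    have b3 : ‖Rw P.bg (θu (uu P T)) α x‖ ^ 2 ≤ ∑ s : Option κ × Option κ, 2 * (n * (2 * C)) ^ 2 *
        (‖α s.1 x‖ ^ 2 + ‖α s.2 x‖ ^ 2) := by
      rw [PiLp.norm_sq_eq_of_L2]
      refine Finset.sum_le_sum fun s _ => ?_
      simp only [Rw, Real.norm_eq_abs, sq_abs]
      nlinarith [mul_le_mul_of_nonneg_right (sq_le_sq' (abs_le.1 (b2 s.1)).1 (abs_le.1 (b2 s.1)).2)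
        (sq_nonneg (α s.2 x)), mul_le_mul_of_nonneg_right (sq_le_sq' (abs_le.1 (b2 s.2)).1
        (abs_le.1 (b2 s.2)).2) (sq_nonneg (α s.1 x)),
        sq_nonneg (P.bg.F.D s.1 (θu (uu P T)) x * α s.2 x + P.bg.F.D s.2 (θu (uu P T)) x * α s.1 x)]
    have b4 := (norm_add_le _ _).trans (add_le_add ((norm_smul _ (P.bg.eC c x - P.p0.C c x)).trans_le
      (mul_le_mul_of_nonneg_right b1 (norm_nonneg _))) (norm_p2 hb (x := x) (Rw P.bg (θu (uu P T)) α x)))
    simp only [← ofReal_norm, ← ENNReal.ofReal_pow (norm_nonneg _)]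
    rw [← ENNReal.ofReal_mul (by positivity), ← ENNReal.ofReal_add (by positivity) (by positivity)]
    refine ENNReal.ofReal_le_ofReal ((pow_le_pow_left₀ (norm_nonneg _) b4 2).trans ?_)
    nlinarith [sq_nonneg ((1 + n * 2) * ‖P.bg.eC c x - P.p0.C c x‖ - ‖Rw P.bg (θu (uu P T)) α x‖)]
  · filter_upwards [eventually_all.2 fun j : Ix P => eventually_gt_atTop |(kk j).tm x|] with T hT
    have ev : θu (uu P T) =ᶠ[𝓝 x] fun _ => 1 := (eventually_all.2 fun j =>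
      (kk j).cont.abs.continuousAt.eventually_lt_const (hT j)).mono fun y hy => by_contra fun k => by
        obtain ⟨j, hj⟩ := θu_ne k
        obtain ⟨s, -, hs⟩ := stp_ne hj
        have := abs_lt.1 (hy j)
        cases s <;> simp [pm] at hs <;> linarith [this.1, this.2]
    have : Rw P.bg (θu (uu P T)) α x = 0 := by ext s; simp [Rw, Pre.D_def, dv_congr ev, dv_const]
    rw [this, map_zero, add_zero, ev.self_of_nhds, one_smul]

end Crest.Agent.X212.Nr51
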