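import Crest.Agent.X212.Nr51.Core
import Crest.Agent.X212.Sw87.MoL

/-!
# Row 212, E-NR (helper51), part 3: no reducible solutions in a model
-/

set_option autoImplicit false
set_option linter.unusedSectionVars false
noncomputable section
open scoped Manifold ContDiff Topology
open MeasureTheory Set Filter

namespace Crest.Agent.X212.Nr51
open An Cyf70 Flo2 Geo28 Sw87.Mo
open Mp86.En (Ix kk kk_mem)
open Dr59 (Cs Ex)
open Bor5.T (Cur)

variable {κ : Type} [Fintype κ] [DecidableEq κ] {μ : Type} [Fintype μ] [DecidableEq μ]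
  {X : M4} {k : ℕ} {τ : MT κ X} {β : MB τ k} {d : X.L}

theorem nk (c : MC μ β) (t : Tk k) (j : Ix (c.P t)) :
    3 / 2 < β.v t j.1 ∧ (kk j).ψ.target = (τ.nb j.1).U 0 := by
  have h := kk_mem j
  generalize kk j = K at h ⊢
  obtain ⟨h', h⟩ := Option.dite_none_right_eq_some.1 h
  exact ⟨h'.1, Option.some.inj h ▸ (congrArg (·.2.2.1.target) h'.2.choose_spec).trans (NB.ψ_tgt _)⟩

theorem act {t : Tk k} {i : τ.N} (h : 3 / 2 < β.v t i) : β.Act i := by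
  refine or_iff_not_imp_left.2 fun n => by_contra fun n' => ?_
  rw [MB.v, MT.sw, if_pos (not_not.1 n), Finset.sum_eq_zero fun c _ => if_neg fun e => n' ⟨c, e⟩] at h
  norm_num at h

theorem ex_U (b : NB κ X) {s : b.e.A.L} (h : b.n.Cl d s) (h' : Geo28.Tor s) {g : X.Fm} (hg : Cur d g) :
    Ex X.I (b.U 0) g := by
  obtain ⟨f, f1, f2⟩ := h'
  have := Sob92.scs (I := IY b.e.A) (M := b.e.A.Y.M × ℝ)
  have o : IsOpen (univ ×ˢ Jk b.s : Set (b.e.A.Y.M × ℝ)) := b.src ▸ b.k.open_source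
  have k := (Nvg56.cur_pb (I' := IY b.e.A) o h f1 hg).add (Ex.mono (I := IY b.e.A) f2 (subset_univ _))
  rw [sub_add_cancel] at k
  refine (Dr59.ex_pd b.n.k o b.src.ge k).mono ((b.U_sub zero_le_one).trans ?_)
  rw [← b.src]
  exact b.k.image_source_eq_target.ge

theorem hy (hP : PzStmt κ μ) (c : MC μ β) (hd : c.Cl d) (t : Tk k) (h : ∀ i, β.Act i → (c.ec i).f = 0 ∨
    (Zc (c.ty i) ∧ ∃ s, (τ.nb i).n.Cl d s ∧ Geo28.Tor s)) : Hy (c.P t) d (c.fo t) where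
  ok := (hP.ok c t).1
  rp := have := Sob92.scs (I := X.I) (M := X.M); ⟨c.m, rfl, Gm56.Rp.fam (e := β.e) β.sm β.sp β.P hd⟩
  cs := c.cs t
  om x := congrArg ((c.P t).bg.p2 x) (by
    ext s
    refine congrArg (R208.F.evA X.X.E 2 (c.fo t x)) (funext fun i => ?_)
    fin_cases i <;> rfl)
  f0 j x hx := c.f0 t j.1 (by linarith [(nk c t j).1]) x ((nk c t j).2 ▸ hx)
  o i := (c.std i).om
  ex j := (h _ (act (nk c t j).1)).imp_right fun ⟨h1, _, h2, h3⟩ =>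
    ⟨h1, fun _ hg => (nk c t j).2 ▸ ex_U _ h2 h3 hg⟩

variable (κ μ) in
/-- **E-NR** -/
theorem nr (hP : PzStmt κ μ) : NrStmt κ μ := by
  intro X τ k β c ens C d S hd hS hc hf hp hi
  rcases S.eq_empty_or_nonempty with rfl | ⟨a, ha⟩
  · exact ⟨1, one_pos, fun t ht => by simpa using hf t ht⟩
  obtain ⟨c₀, k0, k1, -⟩ := hp _ (subset_convexHull ℝ S ha)
  classical
  let _ := hS.fintype
  have := Sob92.scs (I := X.I) (M := X.M)
  have cs := fun a : S => (k0.smul (1 / 2)).sub' (hc a a.2)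
  set q := fun w : S → ℝ => ∑ a, w a * ∑ b, w b * X.ip ((1 / 2 : ℝ) • c₀ - a) ((1 / 2 : ℝ) • c₀ - b)
  have e : ∀ f, f ∈ convexHull ℝ S ↔ ∃ w ∈ stdSimplex ℝ S, ∑ a, w a • a.1 = f := fun f => by
    rw [hS.convexHull_eq_image]; simp
  have hq : ∀ w ∈ stdSimplex ℝ S, q w =
      X.ip ((1 / 2 : ℝ) • c₀ - ∑ a, w a • a.1) ((1 / 2 : ℝ) • c₀ - ∑ a, w a • a.1) := fun w hw => by
    rw [show (1 / 2 : ℝ) • c₀ - ∑ a, w a • a.1 = ∑ a, w a • ((1 / 2 : ℝ) • c₀ - a.1) by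
      simp only [smul_sub, Finset.sum_sub_distrib, ← Finset.sum_smul, hw.2, one_smul], M4.ip,
      (Dr59.cs_sum fun a _ => (cs a).smul _).ip_sum X.ori fun a _ => ((cs a).smul _).cl.sm]
    simp only [Dr59.ip_smul, fun a => Dr59.ip_sum_right (s := .univ) X.ori (cs a).cl.sm fun a _ => (cs a).smul (w a),
      Dr59.ip_smul_right, q]
  obtain ⟨w, h0, hm⟩ := (isCompact_stdSimplex ℝ S).exists_isMinOn ⟨_, single_mem_stdSimplex ℝ ⟨a, ha⟩⟩
    (show Continuous q by fun_prop).continuousOn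
  refine ⟨q w, ?_, fun t ht y c' h1 h2 h3 h4 => ?_⟩
  · obtain ⟨c₁, n0, n1, n2⟩ := hp _ ((e _).2 ⟨w, h0, rfl⟩)
    obtain ⟨b, b1, -, b2⟩ := Gm56.cur_ex k1 n1
    have cw : Cs X.I 2 univ (∑ a, w a • a.1) := Dr59.cs_sum fun a _ => (hc a a.2).smul _
    rw [M4.ip, ip_sq X.ori ((cw.smul 2).sub' n0) (((k0.smul (1 / 2)).sub' cw).smul (-2))
      ((Dr59.ex_dM b1).neg.congr fun x _ => congrFun (by rw [b2]; module) x), Dr59.ip_smul, Dr59.ip_smul_right] at n2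
    rw [hq w h0]
    linarith
  · obtain ⟨w', h5, h6⟩ := (e _).1 (hf t ht)
    have H := hy hP c hd t hi
    refine (ENNReal.ofReal_le_ofReal ((hm h5).trans_eq ?_)).trans (core H h1 h2 h3 h4 k0 k1)
    rw [hq w' h5, h6]
    exact ((k0.smul _).sub' (c.cs t)).ip_ori X.ori (ok H.ok.bg).ori ((X.ori.sameOn_volF (Int54.pre_sp
      (β.F t).toPre) univ).trans (β.o t ▸ Num57.sameOn_vol_oc (β.F t) X.X.dim (X.ori.unit_vol _)).symm)

end Crest.Agent.X212.Nr51
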