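import Crest.Agent.X212.Mp86.Lb
import Crest.Agent.X212.Enw40.Alg
import Crest.Agent.X212.Gm56.Cur
import Crest.Agent.X212.Num57.Hs

/-!
# Row 212, E-NR (helper51), part 1: two-forms in components, the forms `σ(t) dt ∧ z` on a neck
-/

set_option autoImplicit false
set_option linter.unusedSectionVars false
noncomputable section
open scoped Manifold ContDiff Topology InnerProductSpace
open MeasureTheory Set Filter

namespace Crest.Agent.X212.Nr51
open An Wz78 Sob92 Sw88 Cyf70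
open Mp86.En hiding k2
open Sw (Bg F2 En3 Nk)
open Sw.En3
open M (Mf)
open Crest.Agent.R208.F (Ext)
open Dr59 (Cs Ex Dg dM psh)
open Num57 (k1 k2 e2 ee fm1 fm2 vol)
open Nd18 (ca)

variable {κ lam ν : Type} [Fintype κ] [Fintype lam] [Fintype ν] [DecidableEq ν] {X : Mf 4} {nc : ℕ}
  {b : Bg X.I X.M κ lam ν nc} {u v : X.M → Ext X.E} {x : X.M}

variable (b) in
/-- the components of a two-form -/
def kv (x : X.M) : Ext X.E →ₗ[ℝ] F2 κ where
  toFun c := WithLp.toLp 2 fun s => e2 c (ee b.F x s.1) (ee b.F x s.2)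
  map_add' _ _ := by ext s; exact Num57.e2_add _ _ _ _
  map_smul' _ _ := by ext s; exact Num57.e2_smul _ _ _ _

theorem sm_kv (h : Dr59.Sm X.I univ u) : Sm X.I fun x => kv b x (u x) :=
  fun x => SA.toLp fun s => Num57.sa_k2 b.F (h x trivial) s.1 s.2

theorem kv_inj (h : Dg 2 univ u) (k : kv b x (u x) = 0) : u x = 0 := by
  rw [← Num57.fm2_k2 b.F (h x trivial), Num57.fm2_apply]
  simp [show ∀ a c, k2 b.F u a c x = 0 from fun a c => congrArg (· (a, c)) k]

variable (b u v) in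
/-- the density of the pairing -/
def dn (x : X.M) : ℝ := ⟪kv b x (u x), b.p2 x (kv b x (v x))⟫_ℝ - ⟪kv b x (u x), kv b x (v x)⟫_ℝ / 2

section bg
variable (hb : b.OK)
include hb

theorem ok : Num57.OK b.F b.B.o := Num57.OK.of_base X.dim hb.B hb.G

theorem ip_eq (hu : Dg 2 univ u) : Dr59.ip X.I (vol b.F b.B.o) u v = ∫ x, dn b u v x ∂b.F.μ := by
  refine ((ok hb).integ_eq _).trans (integral_congr_ae (.of_forall fun x => ?_))
  have a := a2_fix (B := b.B) (x := x) (T := fun i j => k2 b.F v i j x) (fun i j => Num57.k2_swap _ _ _ _ _)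
    (hb.G.P ▸ fun i j => Num57.k2_P b.F v i j x)
  simp only [smul_eq_mul] at a
  have e : ∀ w s, kv b x (w x) s = k2 b.F w s.1 s.2 x := fun _ _ => rfl
  simp only [Num57.rat_vol_mul b.F X.dim ((ok hb).vo' x) (hu x trivial), dn, inner_F2, p2_apply, Base.sd, e,
    add_div, add_mul, Finset.sum_add_distrib, div_mul_eq_mul_div, ← Finset.sum_div, a, mul_add]
  simp only [Base.st, Fintype.sum_prod_type, Finset.mul_sum, Finset.sum_div, mul_div_assoc', add_sub_cancel_left]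
  exact Finset.sum_congr rfl fun _ _ => Finset.sum_congr rfl fun _ _ => Finset.sum_congr rfl fun _ _ =>
    Finset.sum_congr rfl fun _ _ => by ring

theorem c_p2 (h : Dr59.Sm X.I univ u) : Continuous fun x => b.p2 x (kv b x (u x)) :=
  ContMDiff.continuous fun x => sm_p2 hb (sm_kv h x)

theorem c_dn (hu : Dr59.Sm X.I univ u) (hv : Dr59.Sm X.I univ v) : Continuous (dn b u v) :=
  ((sm_kv hu).continuous.inner (c_p2 hb hv)).sub
    (((sm_kv hu).continuous.inner (sm_kv hv).continuous).div_const 2)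

omit hb in
theorem k_dn (h : HasCompactSupport v) : HasCompactSupport (dn b u v) :=
  h.mono fun x hx k => hx (by simp [dn, k])

/-- the square of a form is bounded by its self-dual part -/
theorem ip_le (h : Cs X.I 2 univ u) : ENNReal.ofReal (Dr59.ip X.I (vol b.F b.B.o) u u) ≤
    ∫⁻ x, ‖b.p2 x (kv b x (u x))‖ₑ ^ 2 ∂b.F.μ := by
  have i : Integrable (fun x => ‖b.p2 x (kv b x (u x))‖ ^ 2) b.F.μ :=
    ((c_p2 hb h.cl.sm).norm.pow 2).integrable_of_hasCompactSupport (h.hc.mono fun x hx k => hx (by simp [k]))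
  simp only [← ofReal_norm, ← ENNReal.ofReal_pow (norm_nonneg _)]
  rw [← ofReal_integral_eq_lintegral_ofReal i (.of_forall fun _ => sq_nonneg _), ip_eq hb h.cl.dg]
  refine ENNReal.ofReal_le_ofReal (integral_mono ((c_dn hb h.cl.sm h.cl.sm).integrable_of_hasCompactSupport
    (k_dn h.hc)) i fun x => ?_)
  rw [dn, ← real_inner_self_eq_norm_sq, inner_p2 hb, p2_p2 hb]
  exact sub_le_self _ (div_nonneg real_inner_self_nonneg zero_le_two)

end bg

variable {e : En3 κ lam ν} {y : e.Y.M} {t : ℝ} {η : F2 κ} (he : e.OK)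

variable (e) in
/-- the spatial part of `ζ` -/
def sp (y : e.Y.M) : F2 κ := WithLp.toLp 2 fun s => if s.1.isSome ∧ s.2.isSome then 1 * e.ζ y s else 0

variable (e) in
/-- the one-form `z` -/
abbrev zf : κ → e.Y.M → ℝ := fun k y => e.ζ y (none, some k)

variable (e) in
/-- the form `dt ∧ z` -/
def tz (y : e.Y.M) : F2 κ := WithLp.toLp 2 fun
  | (none, some k) => zf e k y
  | (some k, none) => -zf e k y
  | _ => 0

include he

theorem zero_sp (h : ∀ s, ∑ r, e.cyl.B.a2 (y, 0) s r * η r = η s) (h0 : ∀ a, η (none, a) = 0)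
    (h1 : ∀ k, e.cyl.p2 (y, 0) η (none, some k) = 0) : η = 0 := by
  have := Enw40.split_le (x := (y, 0)) (F := η) (S := η) he.cyl.B rfl (fun _ => rfl) h h (fun _ _ => rfl) h0
  simp only [← p2_apply, h1, zero_pow two_ne_zero, Finset.sum_const_zero, mul_zero, add_zero] at this
  ext s
  exact pow_eq_zero_iff two_ne_zero |>.1 (le_antisymm
    ((Finset.single_le_sum (fun s _ => sq_nonneg (η s)) (Finset.mem_univ s)).trans this) (sq_nonneg _))

theorem a2_of (h : e.cyl.p2 (y, 0) η = η) (s) : ∑ r, e.cyl.B.a2 (y, 0) s r * η r = η s := by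
  rw [← h]
  simp only [p2_apply, Finset.mul_sum, ← mul_assoc]
  rw [Finset.sum_comm]
  simp only [← Finset.sum_mul, a2_sd he.cyl.B]

theorem zero_sd (h : e.cyl.p2 (y, 0) η = η) (h1 : ∀ k, η (none, some k) = 0) : η = 0 :=
  zero_sp he (a2_of he h) (fun a => a.rec (by linarith [Enw40.a2_anti (a2_of he h) none none]) h1) (h.symm ▸ h1)

theorem p2_t (t : ℝ) : e.cyl.p2 (y, t) = e.cyl.p2 (y, 0) := by
  refine congrArg (fun S => idx S (ContinuousLinearMap.id ℝ ℝ)) (funext fun s => funext fun r => ?_)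
  obtain ⟨_ | _, _ | _⟩ := s <;> obtain ⟨_ | _, _ | _⟩ := r <;> rfl

theorem p2_tz : (2 : ℝ) • e.cyl.p2 (y, 0) (tz e y) = e.ζ y := by
  have a := Enw40.a2_anti (a2_of he (he.pζ y))
  have h := se_ψ e.nk he (η := fun _ => sp e y) (r := 1) (t := 0) (y := y) (by simp [Nd18.Nk.J, En3.nk,
    Nd18.YD.nk, Nd18.Jv]) fun _ _ => rfl
  have h1 : idx (e.cyl.B.st (y, 0)) (ContinuousLinearMap.id ℝ ℝ) (sp e y) = tz e y := by
    ext ⟨_ | j, _ | k⟩
    exacts [h.1, (h.2 k).1.trans (one_mul _), (h.2 j).2.1.trans (congrArg _ (one_mul _)), (h.2 k).2.2 j]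
  have h2 : e.cyl.p2 (y, 0) (tz e y) = e.cyl.p2 (y, 0) (sp e y) := by
    rw [← h1, Bg.p2, idx_idx]
    refine congrArg (fun S => idx S _ _) (funext₂ fun s r => ?_)
    rw [sd_symm he.cyl.B, ← st_sd he.cyl.B]
    exact Finset.sum_congr rfl fun _ _ => by rw [sd_symm he.cyl.B, st_symm he.cyl.B, mul_comm]
  have h3 : tz e y + sp e y = e.ζ y := by
    ext ⟨_ | j, _ | k⟩ <;> simp [tz, sp, a (some _) none]
    linarith [a none none]
  rw [two_smul]
  nth_rw 2 [h2]
  rw [← map_add, h3, he.pζ]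

variable (K : Nk e b)

omit he in
theorem kv_ψ {z : e.Y.M × ℝ} (hz : z ∈ K.ψ.source) (s : Option κ × Option κ) :
    kv b (K.ψ z) (u (K.ψ z)) s = k2 e.D.Z (Dr59.pm (IC e.Y.I) X.I K.ψ u) s.1 s.2 z := by
  rw [k2, e2, Dr59.pm_apply, R208.F.evA_pb]
  refine congrArg (R208.F.evA X.E 2 (u (K.ψ z))) (funext fun i => ?_)
  fin_cases i <;> exact (K.iso.e _ z hz).symm

/-- **the form `σ(t) dt ∧ z`** -/
theorem exists_tz (hz : e.Clo (zf e)) {σ : ℝ → ℝ} (hσ : ContDiff ℝ ∞ σ) (hk : HasCompactSupport σ)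
    (hJ : tsupport σ ⊆ K.J) : ∃ w, Cs X.I 2 K.ψ.target w ∧ Ex X.I K.ψ.target w ∧
      ∀ x, kv b x (w x) = σ (K.tm x) • tz e (K.ψ.symm x).1 := by
  set S := fun t => ∫ s in (0 : ℝ)..t, σ s
  have d : ∀ t, HasDerivAt S (σ t) t := fun t => (hσ.continuous.integral_hasStrictDerivAt 0 t).hasDerivAt
  have sS : ContDiff ℝ ∞ S := contDiff_infty_iff_deriv.2 ⟨fun t => (d t).differentiableAt,
    funext (fun t => (d t).deriv) ▸ hσ⟩
  set α : Option κ → e.Y.M × ℝ → ℝ := fun a z => S z.2 * ca (zf e) a z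
  have sα : ∀ a, Sm (IC e.Y.I) (α a) := fun a => (sm_snd sS).mul (a.rec contMDiff_const fun k => sm_fst (hz.sm k))
  have k : ∀ a, k1 e.D.Z (fm1 e.D.Z α) a = α a := fun a => funext fun z => by
    rw [Num57.k1_fm1]
    cases a <;> simp [α, ca, Fintype.sum_option, Cyf70.cyl, cP, mul_left_comm _ (S _), ← Finset.mul_sum, hz.pr]
  have s1 : Dr59.Sm (IC e.Y.I) univ (fm1 e.D.Z α) := fun z _ => Num57.smAt_fm1 _ fun a => sα a z
  have c := Dr59.cl_dM isOpen_univ s1 fun z _ => Num57.deg_fm1 _ _ z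
  have k' : ∀ z s, k2 e.D.Z (dM _ (fm1 e.D.Z α)) s.1 s.2 z = (σ z.2 • tz e z.1) s := fun z s => by
    have h1 : ∀ a, e.D.Z.D none (α a) z = σ z.2 * ca (zf e) a z := fun a =>
      (D_none _ (sα a) z).trans (by cases a; exacts [((d z.2).mul_const 0).deriv, ((d z.2).mul_const (zf e _ z.1)).deriv])
    have h2 : ∀ j, e.D.Z.D (some j) (α none) z = 0 := fun j => by simp [α, ca, Pre.D_def, dv_const]
    have h3 : ∀ j k, e.D.Z.D (some j) (α (some k)) z = S z.2 * e.D.F.D j (zf e k) z.1 := fun j k =>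
      (D_some _ (sα _) j z).trans (dv_const_smul (S z.2) (SA.md (hz.sm k z.1)))
    rw [Num57.k2_dM_fm1 _ fun a => sα a z]
    simp only [k]
    obtain ⟨_ | j, _ | k⟩ := s <;> simp only [h1, h2, h3] <;>
      simp [α, ca, tz, Cyf70.cyl, cc, Fintype.sum_option, ← mul_sub, hz.cl, Finset.mul_sum, mul_left_comm]
  have z0 : ∀ z : e.Y.M × ℝ, z ∉ univ ×ˢ tsupport σ → dM _ (fm1 e.D.Z α) z = 0 := fun z h => by
    rw [← Num57.fm2_k2 e.D.Z (c.dg z trivial), Num57.fm2_apply]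
    simp [fun a a' => k' z (a, a'), image_eq_zero_of_notMem_tsupport fun k => h ⟨trivial, k⟩]
  have cs : Cs _ 2 K.ψ.source (dM _ (fm1 e.D.Z α)) := ⟨c, .intro (isCompact_univ.prod hk) z0,
    (closure_minimal (Function.support_subset_iff'.2 z0) (isClosed_univ.prod (isClosed_tsupport _))).trans
      fun z h => K.mem_src.2 (hJ h.2)⟩
  let φ : PartialDiffeomorph (IC e.Y.I) X.I (e.Y.M × ℝ) X.M ∞ :=
    ⟨K.ψ.toPartialEquiv, K.ψ.open_source, K.ψ.open_target, K.iso.sm, K.iso.sm'⟩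
  refine ⟨psh φ _, K.ψ.image_source_eq_target ▸ cs.psh φ subset_rfl, ((Dr59.ex_dM s1).pm ⟨fun x hx =>
    K.iso.sm'.contMDiffAt (K.ψ.open_target.mem_nhds hx), mapsTo_univ _ _⟩).congr fun x hx =>
      indicator_of_mem hx _, fun x => ?_⟩
  by_cases hx : x ∈ K.ψ.target
  · obtain ⟨z, hz, rfl⟩ := K.ψ.surjOn hx
    ext s
    rw [kv_ψ K hz, K.tm_ψ z hz, K.ψ.left_inv hz, ← k', k2, k2]
    exact congrArg (e2 · _ _) (Dr59.pm_psh φ hz _)
  · rw [show psh φ _ x = 0 from indicator_of_notMem hx _, map_zero,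
      image_eq_zero_of_notMem_tsupport fun k => hx (K.tgt.ge (hJ k)), zero_smul]

end Crest.Agent.X212.Nr51
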